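import Mathlib
import Vale.Agent.P219.Defs
import Vale.Agent.P219.Conformal.Defs
import Vale.Agent.P219.Conformal.Sobolev

open MeasureTheory Filter Topology Set
open Vale.Agent.P219 Vale.Agent.P219.Conformal

set_option autoImplicit false

namespace Vale.Agent.Results.P219.ConformallyConcave

/-- The sharp Euclidean Sobolev and isoperimetric inequalities hold for the metrics `δ/u²` with
`u` positive and concave on an open subset of `ℝⁿ`, in every dimension. -/
theorem result :
    ∀ (n : ℕ) (U : Set (Coord n)) (u : Coord n → ℝ), 2 ≤ n → Factor U u →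
      (∀ f : Coord n → ℝ, ContDiff ℝ 1 f → HasCompactSupport f → tsupport f ⊆ U →
        isoConst n * (∫ x, |f x| ^ ((n : ℝ) / (n - 1)) * wt U u x) ^ (((n : ℝ) - 1) / n) ≤
          ∫ x, gradDens U u f x) ∧
      (∀ (S : Set (Coord n)) (f : ℕ → Coord n → ℝ) (P : ℝ), MeasurableSet S →
        (∀ k, ContDiff ℝ 1 (f k)) → (∀ k, HasCompactSupport (f k)) → (∀ k, tsupport (f k) ⊆ U) →
        Tendsto (fun k => ∫⁻ x, ENNReal.ofReal
          (|f k x - S.indicator (fun _ => (1:ℝ)) x| * wt U u x)) atTop (𝓝 0) →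
        (∀ k, ∫ x, gradDens U u (f k) x ≤ P) →
        (∫⁻ x in S, ENNReal.ofReal (wt U u x)) ≤
          ENNReal.ofReal ((P / isoConst n) ^ ((n : ℝ) / (n - 1)))) :=
  fun _ _ _ hn H => ⟨fun _ hf hc hfU => sobolev hn H hf hc hfU,
    fun _ f P hS hf hc hfU hL hP => isoperimetric hn H hS f P hf hc hfU hL hP⟩

end Vale.Agent.Results.P219.ConformallyConcave
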