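import Mathlib
import Vale.Agent.P219.Defs
import Vale.Agent.P219.Main
import Vale.Agent.P219.Example

open Matrix MeasureTheory Filter Topology
open Vale.Agent.P219

set_option autoImplicit false

namespace Vale.Agent.Results.P219.SymmetricSpaces

/-- The sharp Euclidean Sobolev and isoperimetric inequalities hold, in every dimension, on the
nonpositively curved symmetric spaces `exp` of a Lie triple system of symmetric matrices. -/
theorem result :
    (∀ (N n : ℕ) (C : Mat N) (ι : Coord n →ₗ[ℝ] Mat N), 2 ≤ n → IsLieTriple C ι →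
      (∀ u : Coord n → ℝ, ContDiff ℝ 1 u → HasCompactSupport u →
        isoConst n *
            (∫ x, |u x| ^ ((n : ℝ) / (n - 1)) * volDensity C ι x) ^ (((n : ℝ) - 1) / n) ≤
          ∫ x, gradNorm C ι u x * volDensity C ι x) ∧
      (∀ (S : Set (Coord n)) (u : ℕ → Coord n → ℝ) (P : ℝ), MeasurableSet S →
        (∀ k, ContDiff ℝ 1 (u k)) → (∀ k, HasCompactSupport (u k)) →
        Tendsto (fun k => ∫⁻ x, ENNReal.ofReal
          (|u k x - S.indicator (fun _ => (1:ℝ)) x| * volDensity C ι x)) atTop (𝓝 0) →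
        (∀ k, ∫ x, gradNorm C ι (u k) x * volDensity C ι x ≤ P) →
        (∫⁻ x in S, ENNReal.ofReal (volDensity C ι x)) ≤
          ENNReal.ofReal ((P / isoConst n) ^ ((n : ℝ) / (n - 1))))) ∧
    (∀ N : ℕ, ∃ (n : ℕ) (ι : Coord n →ₗ[ℝ] Mat N),
      IsLieTriple (1 : Mat N) ι ∧ ∀ A : Mat N, Aᵀ = A → ∃ x, ι x = A) := by
  refine ⟨fun N n C ι hn h => ?_, exists_posDef_space⟩
  obtain ⟨D⟩ := exists_data h
  exact ⟨fun u hu hc => D.sobolev hn hu hc,
    fun S u P hS hu hc hL hP => D.isoperimetric hn hS u P hu hc hL hP⟩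

end Vale.Agent.Results.P219.SymmetricSpaces
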